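import Vale.Agent.P361.Bd6.B10

namespace Vale.Agent.Results.P361.BlochLaw

open Filter Topology Vale.Agent.P361.Model

/-- Every spin `S = n / 2`, `n = 1, 2, 3, …`. -/
theorem result : ∀ n : ℕ, 1 ≤ n →
    (∀ β : ℝ, 0 < β →
      (∀ h : ℝ, Tendsto (fun N : ℕ => finPressure n N β h) atTop (𝓝 (pressure n β h))) ∧
      ConvexOn ℝ Set.univ (pressure n β) ∧
      HasDerivWithinAt (pressure n β) (spontMag n β) (Set.Ioi 0) 0 ∧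
      spontMag n β ≤ (n : ℝ) / 2) ∧
    (∃ β₀ : ℝ, 0 < β₀ ∧ ∀ β : ℝ, β₀ ≤ β → 0 < spontMag n β) ∧
    Tendsto (fun β : ℝ => spontMag n β) atTop (𝓝 ((n : ℝ) / 2)) ∧
    Tendsto (fun β : ℝ => β ^ (3 / 2 : ℝ) * ((n : ℝ) / 2 - spontMag n β)) atTop
      (𝓝 ((riemannZeta (3 / 2)).re /
        (8 * Real.pi ^ (3 / 2 : ℝ) * ((n : ℝ) / 2) ^ (3 / 2 : ℝ)))) :=
  Vale.Agent.P361.LRO.S3S.bloch_all

end Vale.Agent.Results.P361.BlochLaw
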