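import Vale.Agent.P361.Bd6.B10

namespace Vale.Agent.Results.P361.BlochLawHalf

open Filter Topology Vale.Agent.P361.Model

/-- Spin `S = 1/2` (`n = 1`). -/
theorem result :
    (∀ β : ℝ, 0 < β →
      (∀ h : ℝ, Tendsto (fun N : ℕ => finPressure 1 N β h) atTop (𝓝 (pressure 1 β h))) ∧
      ConvexOn ℝ Set.univ (pressure 1 β) ∧
      HasDerivWithinAt (pressure 1 β) (spontMag 1 β) (Set.Ioi 0) 0 ∧
      spontMag 1 β ≤ 1 / 2) ∧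
    (∃ β₀ : ℝ, 0 < β₀ ∧ ∀ β : ℝ, β₀ ≤ β → 0 < spontMag 1 β) ∧
    Tendsto (fun β : ℝ => spontMag 1 β) atTop (𝓝 (1 / 2)) ∧
    Tendsto (fun β : ℝ => β ^ (3 / 2 : ℝ) * (1 / 2 - spontMag 1 β)) atTop
      (𝓝 ((riemannZeta (3 / 2)).re / (8 * Real.pi ^ (3 / 2 : ℝ) * (1 / 2 : ℝ) ^ (3 / 2 : ℝ)))) :=
  by simpa only [Nat.cast_one] using Vale.Agent.P361.LRO.S3S.bloch_all 1 le_rfl

end Vale.Agent.Results.P361.BlochLawHalf
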