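import Vale.Agent.P361.Bd3.B2

namespace Vale.Agent.Results.P361.BlochSmallField

open Filter Topology MeasureTheory Vale.Agent.P361.Model

/-- Spin `S = n/2`, `n ≥ 1`. -/
theorem result (n : ℕ) (hn : 1 ≤ n) :
    (∀ β : ℝ, 0 < β →
      (∀ h : ℝ, Tendsto (fun N : ℕ => finPressure n N β h) atTop (𝓝 (pressure n β h))) ∧
      ConvexOn ℝ Set.univ (pressure n β) ∧
      HasDerivWithinAt (pressure n β) (spontMag n β) (Set.Ioi 0) 0 ∧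
      ∀ h : ℝ, 0 ≤ h →
        HasDerivWithinAt (pressure n β) (mag n β h) (Set.Ioi h) h ∧ mag n β h ≤ (n : ℝ) / 2) ∧
    (∀ β h : ℝ, 0 < β → 0 ≤ h → 0 < mag n β h →
      IntegrableOn
        (fun k => 1 / (Real.exp (β * ((n : ℝ) / 2 / mag n β h * magnon ((n : ℝ) / 2) k + h)) - 1))
        (Set.univ.pi fun _ => Set.Icc (-Real.pi) Real.pi) ∧
      mag n β h / ((n : ℝ) / 2) *
        boseInt (fun k => β * ((n : ℝ) / 2 / mag n β h * magnon ((n : ℝ) / 2) k + h)) ≤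
        (n : ℝ) / 2 - mag n β h) ∧
    (∀ c : ℝ, c < (riemannZeta (3 / 2)).re /
        (8 * Real.pi ^ (3 / 2 : ℝ) * ((n : ℝ) / 2) ^ (3 / 2 : ℝ)) →
      ∀ᶠ β : ℝ in atTop, c < β ^ (3 / 2 : ℝ) * ((n : ℝ) / 2 - spontMag n β)) ∧
    (∀ κ : ℝ, κ < 1 / 21 → ∀ ε : ℝ, 0 < ε →
      ∀ᶠ β : ℝ in atTop, ∀ h : ℝ, β ^ (-1 - κ) ≤ h →
        |β ^ (3 / 2 : ℝ) * ((n : ℝ) / 2 - mag n β h) - idealDeficit ((n : ℝ) / 2) (β * h)| ≤ ε) ∧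
    (∀ κ : ℝ, 0 < κ → κ < 1 / 21 →
      Tendsto (fun β : ℝ => β ^ (3 / 2 : ℝ) * ((n : ℝ) / 2 - mag n β (β ^ (-1 - κ)))) atTop
        (𝓝 ((riemannZeta (3 / 2)).re /
          (8 * Real.pi ^ (3 / 2 : ℝ) * ((n : ℝ) / 2) ^ (3 / 2 : ℝ))))) ∧
    (∀ ε : ℝ, 0 < ε → ∀ᶠ β : ℝ in atTop, ∀ h : ℝ, 0 < h →
      (n : ℝ) / 2 - mag n β h ≤ β ^ (-(5 / 2) + ε) / h) :=
  ⟨fun β hβ => ⟨(Vale.Agent.P361.Bridge.main_thermo n hn β hβ).1,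
      (Vale.Agent.P361.Bridge.main_thermo n hn β hβ).2.1,
      (Vale.Agent.P361.Bridge.main_thermo n hn β hβ).2.2.1,
      Vale.Agent.P361.BridgeB.mag_deriv n hn β hβ⟩,
    Vale.Agent.P361.BridgeB.mag_int n hn, Vale.Agent.P361.Bridge.main_bloch n hn,
    Vale.Agent.P361.BridgeB.mag_uniform n hn, Vale.Agent.P361.BridgeB.mag_vanishing n hn,
    Vale.Agent.P361.BridgeB.mag_crude n hn⟩

end Vale.Agent.Results.P361.BlochSmallField
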